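import Vale.Agent.P011.D4T.Defs2
import Vale.Agent.P011.D4T.H369.AutI

/-!
Block D4T, row gen2, first part: the involution of a quaternion algebra depends only on the
quaternion algebra; automorphisms which fix `i`.
-/

open NumberField Topology

namespace Vale.Agent.P011.D4T.H369

open Vale.Agent.P011.MPQ Vale.Agent.P011.D4 Vale.Agent.P011.D4.Oct Vale.Agent.P011.D4.Em
open Vale.Agent.P011.E6 (tripO tripO_oup)
open Vale.Agent.P011.D4.B.FI (fixI fixI_top mem_fixI)

section alg

variable {k : Type} [Field k] {a b c b' c' : kˣ}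

/-- The projection and automorphisms. -/
theorem aut_proj (h2 : (2 : k) ≠ 0) (f : AutC a b c) (z u x : Oct a b c) :
    f.1 (B.proj z u x) = B.proj (f.1 z) (f.1 u) (f.1 x) := by
  have h1 : ∀ x y, dot (f.1 x) (f.1 y) = dot x y := B.aut_dot h2 f
  have h3 : ∀ x, Oct.norm (f.1 x) = Oct.norm x := aut_norm f
  have h4 : dot (f.1 x) 1 = dot x 1 := by
    rw [← aut_one f, h1, aut_one]
  simp only [B.proj, map_add, map_smul, f.2, aut_one]
  rw [← f.2 z u, h1, h1, h1, h3, h3, h3, h4]

/-- The projection to the standard quaternion algebra. -/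
theorem proj_std {p r : k} {j : Oct a b c} (hj : j = ⟨⟨0, 0, p, r⟩, 0⟩)
    (hD : p ^ 2 - a * r ^ 2 ≠ 0) (x : Oct a b c) : B.proj gi j x = ⟨x.fst, 0⟩ := by
  have ha : (a : k) ≠ 0 := a.ne_zero
  have hb : (b : k) ≠ 0 := b.ne_zero
  have e1 : gi * j = ⟨⟨0, 0, a * r, p⟩, 0⟩ := by
    rw [hj]
    apply ext8 <;> simp [gi]
  have e2 : Oct.norm j = -b * (p ^ 2 - a * r ^ 2) := by
    rw [hj, B.norm_coord]
    simp
    ring
  have e3 : Oct.norm (gi * j) = a * b * (p ^ 2 - a * r ^ 2) := by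
    rw [e1, B.norm_coord]
    simp
    ring
  have e4 : Oct.norm (gi : Oct a b c) = -a := by
    rw [B.norm_coord]
    simp [gi]
  have e5 : dot x (gi : Oct a b c) = -a * x.fst.imI := by
    rw [B.dot_coord]
    simp [gi]
  have e6 : dot x j = -b * (x.fst.imJ * p - a * x.fst.imK * r) := by
    rw [B.dot_coord, hj]
    simp
    ring
  have e7 : dot x (gi * j) = a * b * (x.fst.imK * p - x.fst.imJ * r) := by
    rw [B.dot_coord, e1]
    simp
    ring
  have e8 : dot x (1 : Oct a b c) = x.fst.re := by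
    rw [B.dot_coord]
    simp
  rw [B.proj, e2, e3, e4, e5, e6, e7, e8, e1, hj]
  apply ext8
  · simp [gi]
  · simp [gi]
  · simp [gi]
    field_simp
    ring
  · simp [gi]
    field_simp
    ring
  · simp [gi]
  · simp [gi]
  · simp [gi]
  · simp [gi]

end alg

section tq

variable {k E : Type} [Field k] [Field E] [Algebra k E] [NeZero (2 : E)]
  {a b c b' c' : kˣ}

/-- The involution in terms of the projection. -/
theorem tQ_oup (h2 : (2 : k) ≠ 0) {j l : Oct a b c} (h : Trip a b' c' gi j l) (x : Oct a b c) :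
    tQ E h (oup E x) = oup E ((2 : k) • B.proj gi j x - x) := by
  have : NeZero (2 : k) := ⟨h2⟩
  obtain ⟨Φ, h1, -, -, -⟩ := Oct.exists_emb h
  obtain ⟨y, rfl⟩ := Φ.surjective x
  change tripO E h (t0 E a b' c' ((tripO E h).symm (oup E (Φ y)))) = _
  have e1 : (tripO E h).symm (oup E (Φ y)) = oup E y := by
    rw [LinearEquiv.symm_apply_eq, tripO_oup, h1]
  have e2 : t0 E a b' c' (oup E y) = oup E ⟨y.fst, -y.snd⟩ := by
    apply Oct.ext
    · rfl
    · exact (qup_neg y.snd).symm
  have e3 : emb gi j l (⟨y.fst, -y.snd⟩ : Oct a b' c') =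
      qemb gi j y.fst - qemb gi j y.snd * l := by
    have e4 : (qemb gi j (-y.snd) : Oct a b c) = -qemb gi j y.snd := by
      simp only [qemb, QuaternionAlgebra.re_neg, QuaternionAlgebra.imI_neg,
        QuaternionAlgebra.imJ_neg, QuaternionAlgebra.imK_neg, neg_smul]
      abel
    rw [emb, e4, neg_mul, ← sub_eq_add_neg]
  rw [e1, e2, tripO_oup, e3, h1, B.proj_emb h2 h, emb]
  congr 1
  rw [two_smul]
  abel

/-- The involution depends only on `j`. -/
theorem tQ_congr (h2 : (2 : k) ≠ 0) {b'' c'' : kˣ} {j l l' : Oct a b c}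
    (h : Trip a b' c' gi j l) (h' : Trip a b'' c'' gi j l') : tQ E h = tQ E h' :=
  equiv_unique fun x => by rw [tQ_oup h2, tQ_oup h2]

/-- The standard involution. -/
theorem tQ_t0 (h2 : (2 : k) ≠ 0) {p r : k} {j l : Oct a b c} (hj : j = ⟨⟨0, 0, p, r⟩, 0⟩)
    (hD : p ^ 2 - a * r ^ 2 ≠ 0) (h : Trip a b' c' gi j l) : tQ E h = t0 E a b c :=
  equiv_unique fun x => by
    rw [tQ_oup h2, proj_std hj hD]
    apply Oct.ext
    · change qup E ((2 : k) • x.fst - x.fst) = qup E x.fst
      rw [two_smul, add_sub_cancel_right]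
    · change qup E ((2 : k) • (0 : Qt a b) - x.snd) = -qup E x.snd
      rw [smul_zero, zero_sub, qup_neg]

/-- Automorphisms and involutions. -/
theorem ext_tQ (h2 : (2 : k) ≠ 0) (f : fixI a b c) {b'' c'' : kˣ} {j j' l l' : Oct a b c}
    (h : Trip a b' c' gi j l) (h' : Trip a b'' c'' gi j' l') (hj : f.1.1 j = j') :
    extE E f.1.1 * tQ E h = tQ E h' * extE E f.1.1 :=
  equiv_unique fun x => by
    rw [LinearEquiv.mul_apply, LinearEquiv.mul_apply, tQ_oup h2, extE_oup, extE_oup,
      tQ_oup h2, map_sub, map_smul, aut_proj h2, mem_fixI.mp f.2, hj]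

end tq

end Vale.Agent.P011.D4T.H369
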