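import Vale.Agent.P011.D4T.H369.Gen2A
import Vale.Agent.P011.D4T.H69.Z5
import Vale.Agent.P011.D4T.H63.Nei
import Vale.Agent.P011.D4T.H493.Star
import Vale.Agent.P011.D4T.H553.TQ
import Vale.Agent.P011.D4T.H691.Ch

/-!
Block D4T, row gen2, second part: the vectors `s e₊ j + t e₋ j`.
-/

open NumberField Topology

set_option linter.unusedSectionVars false

namespace Vale.Agent.P011.D4T

open Vale.Agent.P011.MPQ Vale.Agent.P011.D4 Vale.Agent.P011.D4.Oct Vale.Agent.P011.D4.Em
open Vale.Agent.P011.E6 (tripO tripO_oup)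
open Vale.Agent.P011.D4.B.FI (fixI fixI_top mem_fixI)

namespace H369

section alg

variable {k L E : Type} [Field k] [Field L] [Field E] [Algebra k L] [Algebra k E] [Algebra L E]
  [IsScalarTower k L E] [NeZero (2 : E)] {ρ σ : E ≃ₐ[k] E} {ρL : L ≃ₐ[k] L} {α : E}
  {a b c b' c' : kˣ} {q : Lˣ}

/-- The elements `s e₊ j + t e₋ j`. -/
def xj (α s t : E) : OctL E a b c := ⟨⟨0, 0, (s + t) / 2, (s - t) / (2 * α)⟩, 0⟩

theorem xj_smul (α u s t : E) : u • (xj α s t : OctL E a b c) = xj α (u * s) (u * t) := by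
  apply Oct.ext
  · apply QuaternionAlgebra.ext
    · change u * 0 = 0
      ring
    · change u * 0 = 0
      ring
    · change u * ((s + t) / 2) = (u * s + u * t) / 2
      ring
    · change u * ((s - t) / (2 * α)) = (u * s - u * t) / (2 * α)
      ring
  · change u • (0 : Qt (up E a) (up E b)) = 0
    exact smul_zero _

theorem xj_add (α s t s' t' : E) :
    (xj α s t : OctL E a b c) + xj α s' t' = xj α (s + s') (t + t') := by
  apply Oct.ext
  · apply QuaternionAlgebra.ext
    · change (0 : E) + 0 = 0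
      ring
    · change (0 : E) + 0 = 0
      ring
    · change (s + t) / 2 + (s' + t') / 2 = (s + s' + (t + t')) / 2
      ring
    · change (s - t) / (2 * α) + (s' - t') / (2 * α) = (s + s' - (t + t')) / (2 * α)
      ring
  · change (0 : Qt (up E a) (up E b)) + 0 = 0
    exact add_zero _

theorem oup_gj : oup E (gj : Oct a b c) = xj α 1 1 := by
  have h2 : (2 : E) ≠ 0 := NeZero.ne 2
  have h0 : algebraMap k E 0 = 0 := map_zero _
  have h1 : algebraMap k E 1 = 1 := map_one _
  apply Oct.ext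
  · apply QuaternionAlgebra.ext
    · change algebraMap k E 0 = 0
      exact h0
    · change algebraMap k E 0 = 0
      exact h0
    · change algebraMap k E 1 = (1 + 1) / 2
      rw [h1]
      field_simp
      norm_num
    · change algebraMap k E 0 = (1 - 1) / (2 * α)
      rw [h0, sub_self, zero_div]
  · apply QuaternionAlgebra.ext <;> exact h0

theorem norm_xj (hα : α * α = algebraMap k E a) (hα0 : α ≠ 0) (s t : E) :
    Oct.norm (xj α s t : OctL E a b c) = -algebraMap k E b * (s * t) := by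
  have h2 : (2 : E) ≠ 0 := NeZero.ne 2
  have ha : ((up E a : Eˣ) : E) = α * α := hα.symm
  have hb : ((up E b : Eˣ) : E) = algebraMap k E b := rfl
  simp only [Oct.norm, xj, nrd, ha, hb, QuaternionAlgebra.re_zero, QuaternionAlgebra.imI_zero,
    QuaternionAlgebra.imJ_zero, QuaternionAlgebra.imK_zero]
  field_simp
  ring

theorem norm_mo (hα : α * α = algebraMap k E a) (hα0 : α ≠ 0) (s t : E) :
    Oct.norm (s • (ep α : OctL E a b c) + t • (1 - ep α)) = s * t := by
  have h2 : (2 : E) ≠ 0 := NeZero.ne 2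
  have ha : ((up E a : Eˣ) : E) = α * α := hα.symm
  have e : s • (ep α : OctL E a b c) + t • (1 - ep α) =
      ⟨⟨(s + t) / 2, (s - t) / (2 * α), 0, 0⟩, 0⟩ := by
    apply Oct.ext
    · apply QuaternionAlgebra.ext
      · change s * (1 / 2) + t * (1 - 1 / 2) = (s + t) / 2
        field_simp
        ring
      · change s * (1 / (2 * α)) + t * (0 - 1 / (2 * α)) = (s - t) / (2 * α)
        field_simp
        ring
      · change s * 0 + t * (0 - 0) = 0
        ring
      · change s * 0 + t * (0 - 0) = 0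
        ring
    · change s • (0 : Qt (up E a) (up E b)) + t • (0 - 0) = 0
      rw [smul_zero, sub_zero, smul_zero, add_zero]
  rw [e]
  simp only [Oct.norm, nrd, ha, QuaternionAlgebra.re_zero, QuaternionAlgebra.imI_zero,
    QuaternionAlgebra.imJ_zero, QuaternionAlgebra.imK_zero]
  field_simp
  ring

theorem tri_fst0 (X Y : Qt (up E a) (up E b)) :
    (tri ρ (⟨X, 0⟩ : OctL E a b c) ⟨Y, 0⟩) =
      ⟨qmap ρ (star X) * qmap ρ (qmap ρ (star Y)), 0⟩ := by
  apply Oct.ext
  · simp [tri, omap, qmap_zero]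
  · simp [tri, omap, qmap_zero]

theorem qmap_star (w0 w1 w2 w3 : E) :
    qmap ρ (star (⟨w0, w1, w2, w3⟩ : Qt (up E a) (up E b))) = ⟨ρ w0, -ρ w1, -ρ w2, -ρ w3⟩ := by
  apply QuaternionAlgebra.ext
  · change ρ (w0 + 0 * w1) = ρ w0
    rw [zero_mul, add_zero]
  · exact map_neg ρ w1
  · exact map_neg ρ w2
  · exact map_neg ρ w3

variable (hα : α * α = algebraMap k E a) (hρα : ρ α = α) (hσα : σ α = -α)

omit [NeZero (2 : E)] in
include hα in
theorem al_ne : α ≠ 0 := by
  rintro rfl
  rw [mul_zero] at hα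
  exact a.ne_zero ((map_eq_zero _).mp hα.symm)

include hα hσα in
theorem Jm_xj : Jm ρ σ α q (xj α 1 0 : OctL E a b c) =
    (algebraMap L E q * ρ (algebraMap L E q)) • xj α 0 1 := by
  have h2 : (2 : E) ≠ 0 := NeZero.ne 2
  have hα0 := al_ne hα
  have h3 : σ (2 : E) = 2 := map_ofNat σ 2
  have ha : ((up E a : Eˣ) : E) = α * α := hα.symm
  obtain ⟨r, hr⟩ : ∃ r, r = algebraMap L E (q : L) * ρ (algebraMap L E (q : L)) := ⟨_, rfl⟩
  rw [← hr]
  have e : qmap σ (xj α 1 0 : OctL E a b c).fst = ⟨0, 0, 1 / 2, -(1 / (2 * α))⟩ := by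
    apply QuaternionAlgebra.ext
    · exact map_zero σ
    · exact map_zero σ
    · change σ ((1 + 0) / 2) = 1 / 2
      rw [map_div₀, map_add, map_one, map_zero, h3, add_zero]
    · change σ ((1 - 0) / (2 * α)) = -(1 / (2 * α))
      rw [map_div₀, map_sub, map_one, map_zero, map_mul, h3, hσα]
      field_simp
      ring
  apply Oct.ext
  · change mq a b α _ * qmap σ (xj α 1 0 : OctL E a b c).fst * mq a b α _ =
      r • (⟨0, 0, (0 + 1) / 2, (0 - 1) / (2 * α)⟩ : Qt (up E a) (up E b))
    rw [← hr, e, mq, mq]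
    apply QuaternionAlgebra.ext
    · simp only [QuaternionAlgebra.re_mul, QuaternionAlgebra.imI_mul, QuaternionAlgebra.imJ_mul,
        QuaternionAlgebra.imK_mul, QuaternionAlgebra.re_smul, ha, smul_eq_mul]
      ring
    · simp only [QuaternionAlgebra.re_mul, QuaternionAlgebra.imI_mul, QuaternionAlgebra.imJ_mul,
        QuaternionAlgebra.imK_mul, QuaternionAlgebra.imI_smul, ha, smul_eq_mul]
      ring
    · simp only [QuaternionAlgebra.re_mul, QuaternionAlgebra.imI_mul, QuaternionAlgebra.imJ_mul,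
        QuaternionAlgebra.imK_mul, QuaternionAlgebra.imJ_smul, ha, smul_eq_mul]
      field_simp
      ring
    · simp only [QuaternionAlgebra.re_mul, QuaternionAlgebra.imI_mul, QuaternionAlgebra.imJ_mul,
        QuaternionAlgebra.imK_mul, QuaternionAlgebra.imK_smul, ha, smul_eq_mul]
      field_simp
      ring
  · change qmap σ (0 : Qt (up E a) (up E b)) * _ = r • (0 : Qt (up E a) (up E b))
    rw [qmap_zero, zero_mul, smul_zero]

include hα hρα in
/-- The lines `e₊ j` in terms of the product. -/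
theorem line_xj {y : OctL E a b c} (h0 : y.snd = 0) (h1 : tri ρ (ep α) y = 0)
    (h2 : tri ρ y (1 - ep α) = 0) : ∃ s : E, y = s • xj α 1 0 := by
  have n2 : (2 : E) ≠ 0 := NeZero.ne 2
  have hα0 := al_ne hα
  have ha : ((up E a : Eˣ) : E) = α * α := hα.symm
  have h3 : ρ (2 : E) = 2 := map_ofNat ρ 2
  have hρ1 : ρ (1 / 2) = 1 / 2 := by rw [map_div₀, map_one, h3]
  have hρ2 : ρ (1 / (2 * α)) = 1 / (2 * α) := by rw [map_div₀, map_one, map_mul, h3, hρα]
  obtain ⟨⟨y0, y1, y2, y3⟩, y'⟩ := y
  have h0' : y' = 0 := h0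
  subst h0'
  have f1 : (ep α : OctL E a b c) = ⟨⟨1 / 2, 1 / (2 * α), 0, 0⟩, 0⟩ := rfl
  have f2 : (1 - ep α : OctL E a b c) = ⟨⟨1 / 2, -(1 / (2 * α)), 0, 0⟩, 0⟩ := by
    apply Oct.ext
    · apply QuaternionAlgebra.ext
      · change (1 : E) - 1 / 2 = 1 / 2
        field_simp
        norm_num
      · change (0 : E) - 1 / (2 * α) = -(1 / (2 * α))
        ring
      · change (0 : E) - 0 = 0
        ring
      · change (0 : E) - 0 = 0
        ring
    · change (0 : Qt (up E a) (up E b)) - 0 = 0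
      exact sub_zero _
  rw [f1, tri_fst0, qmap_star, qmap_star, qmap, QuaternionAlgebra.mk_mul_mk] at h1
  rw [f2, tri_fst0, qmap_star, qmap_star, qmap, QuaternionAlgebra.mk_mul_mk] at h2
  have e1 := congrArg (fun z : OctL E a b c => z.fst.re) h1
  have e2 := congrArg (fun z : OctL E a b c => z.fst.imJ) h1
  have e3 := congrArg (fun z : OctL E a b c => z.fst.re) h2
  simp only [fst_zero, QuaternionAlgebra.re_zero, QuaternionAlgebra.imJ_zero, map_neg, hρ1, hρ2,
    map_zero, neg_zero, zero_mul, mul_zero, add_zero, sub_zero, ha] at e1 e2 e3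
  have e4 : ρ (ρ y0) = -(α * ρ (ρ y1)) := by
    field_simp at e1
    linear_combination e1
  have e5 : ρ (ρ y2) = α * ρ (ρ y3) := by
    field_simp at e2
    linear_combination -e2
  have e6 : ρ y0 = α * ρ y1 := by
    field_simp at e3
    linear_combination e3
  have e7 : y0 = α * y1 := ρ.injective (by rw [e6, map_mul, hρα])
  have e8 : y0 = -(α * y1) :=
    ρ.injective (ρ.injective (by rw [e4, map_neg, map_mul, map_neg, map_mul, hρα, hρα]))
  have e9 : y2 = α * y3 := ρ.injective (ρ.injective (by rw [e5, map_mul, map_mul, hρα, hρα]))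
  have e10 : y0 = 0 := by
    have : (2 : E) * y0 = 0 := by linear_combination e7 + e8
    exact (mul_eq_zero.mp this).resolve_left n2
  have e11 : y1 = 0 := by
    rw [e10] at e7
    exact (mul_eq_zero.mp e7.symm).resolve_left hα0
  refine ⟨2 * y2, ?_⟩
  rw [xj_smul, xj, e10, e11]
  apply Oct.ext
  · apply QuaternionAlgebra.ext
    · rfl
    · rfl
    · change y2 = (2 * y2 * 1 + 2 * y2 * 0) / 2
      field_simp
      ring
    · change y3 = (2 * y2 * 1 - 2 * y2 * 0) / (2 * α)
      rw [e9]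
      field_simp
      ring
  · rfl

theorem em_eq : (1 - ep α : OctL E a b c) = ⟨⟨1 / 2, -(1 / (2 * α)), 0, 0⟩, 0⟩ := by
  have n2 : (2 : E) ≠ 0 := NeZero.ne 2
  apply Oct.ext
  · apply QuaternionAlgebra.ext
    · change (1 : E) - 1 / 2 = 1 / 2
      field_simp
      norm_num
    · change (0 : E) - 1 / (2 * α) = -(1 / (2 * α))
      ring
    · change (0 : E) - 0 = 0
      ring
    · change (0 : E) - 0 = 0
      ring
  · change (0 : Qt (up E a) (up E b)) - 0 = 0
    exact sub_zero _

include hα hρα in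
theorem tri_ep_xj : tri ρ (ep α : OctL E a b c) (xj α 1 0) = 0 := by
  have n2 : (2 : E) ≠ 0 := NeZero.ne 2
  have hα0 := al_ne hα
  have ha : ((up E a : Eˣ) : E) = α * α := hα.symm
  have h3 : ρ (2 : E) = 2 := map_ofNat ρ 2
  rw [ep, xj, tri_fst0, qmap_star, qmap_star, qmap, QuaternionAlgebra.mk_mul_mk]
  apply Oct.ext
  · apply QuaternionAlgebra.ext <;>
    · simp only [fst_zero, QuaternionAlgebra.re_zero, QuaternionAlgebra.imI_zero,
        QuaternionAlgebra.imJ_zero, QuaternionAlgebra.imK_zero, map_neg, map_div₀, map_mul,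
        map_one, h3, hρα, map_zero, neg_zero, zero_mul, mul_zero, add_zero,
        sub_zero, ha]
      try field_simp
      try ring
  · rfl

include hα hρα in
theorem tri_xj_em : tri ρ (xj α 1 0 : OctL E a b c) (1 - ep α) = 0 := by
  have n2 : (2 : E) ≠ 0 := NeZero.ne 2
  have hα0 := al_ne hα
  have ha : ((up E a : Eˣ) : E) = α * α := hα.symm
  have h3 : ρ (2 : E) = 2 := map_ofNat ρ 2
  rw [em_eq, xj, tri_fst0, qmap_star, qmap_star, qmap, QuaternionAlgebra.mk_mul_mk]
  apply Oct.ext
  · apply QuaternionAlgebra.ext <;>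
    · simp only [fst_zero, QuaternionAlgebra.re_zero, QuaternionAlgebra.imI_zero,
        QuaternionAlgebra.imJ_zero, QuaternionAlgebra.imK_zero, map_neg, map_div₀, map_mul,
        map_one, h3, hρα, map_zero, neg_zero, zero_mul, mul_zero, add_zero,
        sub_zero, zero_add, ha]
      try field_simp
      try ring
  · rfl

omit [NeZero (2 : E)] in
theorem Jm_smul' (t : E) (x : OctL E a b c) : Jm ρ σ α q (t • x) = σ t • Jm ρ σ α q x := by
  rw [Jm_eq, Jm_eq, omap_smul, mul_smul_oct, smul_mul_oct]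

end alg

end H369

end Vale.Agent.P011.D4T
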